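import Mathlib

/-! Block [E] (evenness) of the odd theta blueprint of P287: a finite dimensional module over the
even Clifford algebra of a ternary quadratic form with invertible determinant has even dimension. -/

namespace Vale.Agent.P287.H589

open Module

section field

variable {κ V : Type*} [Field κ] [AddCommGroup V] [Module κ V]

/-- bilinear extension of the operators `E i j` -/
noncomputable def bE (E : Fin 3 → Fin 3 → Module.End κ V) (x y : Fin 3 → κ) : Module.End κ V :=
  ∑ i, ∑ j, (x i * y j) • E i j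

/-- the bilinear form -/
def bA (A : Fin 3 → Fin 3 → κ) (x y : Fin 3 → κ) : κ := ∑ i, ∑ j, x i * A i j * y j

theorem bE_add (E : Fin 3 → Fin 3 → Module.End κ V) (A : Fin 3 → Fin 3 → κ)
    (h1 : ∀ i j, E i j + E j i = (2 * A i j) • (1 : Module.End κ V)) (x y : Fin 3 → κ) :
    bE E x y + bE E y x = (2 * bA A x y) • (1 : Module.End κ V) := by
  have e : bE E y x = ∑ i, ∑ j, (x i * y j) • E j i := by
    unfold bE
    rw [Finset.sum_comm]
    refine Finset.sum_congr rfl fun i _ => Finset.sum_congr rfl fun j _ => ?_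
    rw [mul_comm]
  rw [e, bE, bA, ← Finset.sum_add_distrib, Finset.mul_sum, Finset.sum_smul]
  refine Finset.sum_congr rfl fun i _ => ?_
  rw [← Finset.sum_add_distrib, Finset.mul_sum, Finset.sum_smul]
  refine Finset.sum_congr rfl fun j _ => ?_
  rw [← smul_add, h1, smul_smul]
  congr 1
  ring

theorem bE_mul (E : Fin 3 → Fin 3 → Module.End κ V) (x y z w : Fin 3 → κ) :
    bE E x y * bE E z w = ∑ i, ∑ j, ∑ k, ∑ l, (x i * y j * z k * w l) • (E i j * E k l) := by
  unfold bE
  rw [Finset.sum_mul]
  refine Finset.sum_congr rfl fun i _ => ?_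
  rw [Finset.sum_mul]
  refine Finset.sum_congr rfl fun j _ => ?_
  rw [Finset.mul_sum]
  refine Finset.sum_congr rfl fun k _ => ?_
  rw [Finset.mul_sum]
  refine Finset.sum_congr rfl fun l _ => ?_
  rw [smul_mul_smul_comm]
  congr 1
  ring

theorem bE_mul_add (E : Fin 3 → Fin 3 → Module.End κ V) (A : Fin 3 → Fin 3 → κ)
    (h3 : ∀ i j k l, E i j * E k l + E i k * E j l = (2 * A j k) • E i l) (x y z w : Fin 3 → κ) :
    bE E x y * bE E z w + bE E x z * bE E y w = (2 * bA A y z) • bE E x w := by
  have e2 : bE E x z * bE E y w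
      = ∑ i, ∑ j, ∑ k, ∑ l, (x i * y j * z k * w l) • (E i k * E j l) := by
    rw [bE_mul]
    refine Finset.sum_congr rfl fun i _ => ?_
    rw [Finset.sum_comm]
    refine Finset.sum_congr rfl fun j _ => Finset.sum_congr rfl fun k _ =>
      Finset.sum_congr rfl fun l _ => ?_
    congr 1
    ring
  have e3 : (2 * bA A y z) • bE E x w
      = ∑ i, ∑ j, ∑ k, ∑ l, (x i * y j * z k * w l) • ((2 * A j k) • E i l) := by
    unfold bE bA
    rw [Finset.smul_sum]
    refine Finset.sum_congr rfl fun i _ => ?_
    rw [Finset.mul_sum, Finset.sum_smul]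
    refine Finset.sum_congr rfl fun j _ => ?_
    rw [Finset.mul_sum, Finset.sum_smul]
    refine Finset.sum_congr rfl fun k _ => ?_
    rw [Finset.smul_sum]
    refine Finset.sum_congr rfl fun l _ => ?_
    rw [smul_smul, smul_smul]
    congr 1
    ring
  rw [e3, bE_mul, e2]
  simp only [← Finset.sum_add_distrib]
  refine Finset.sum_congr rfl fun i _ => Finset.sum_congr rfl fun j _ =>
    Finset.sum_congr rfl fun k _ => Finset.sum_congr rfl fun l _ => ?_
  rw [← smul_add, h3]

/-- field case -/
theorem field_even [FiniteDimensional κ V] (h2 : (2 : κ) ≠ 0) (A : Matrix (Fin 3) (Fin 3) κ)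
    (hA : A.IsSymm) (hdet : A.det ≠ 0) (E : Fin 3 → Fin 3 → Module.End κ V)
    (h1 : ∀ i j, E i j + E j i = (2 * A i j) • (1 : Module.End κ V))
    (h3 : ∀ i j k l, E i j * E k l + E i k * E j l = (2 * A j k) • E i l) :
    Even (finrank κ V) := by
  classical
  let _ : Invertible (2 : κ) := invertibleOfNonzero h2
  have hB : ∀ x y, Matrix.toBilin' A x y = bA A x y := by
    intro x y
    rw [Matrix.toBilin'_apply]
    rfl
  have hsymm : LinearMap.IsSymm (Matrix.toBilin' A) := by
    constructor
    intro x y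
    simp only [RingHom.id_apply, hB, bA]
    rw [Finset.sum_comm]
    refine Finset.sum_congr rfl fun i _ => Finset.sum_congr rfl fun j _ => ?_
    rw [hA.apply]
    ring
  obtain ⟨v, hv⟩ := LinearMap.BilinForm.exists_orthogonal_basis hsymm
  have hnd : (Matrix.toBilin' A).Nondegenerate :=
    LinearMap.BilinForm.nondegenerate_toBilin'_of_det_ne_zero' A hdet
  have hfr : finrank κ (Fin 3 → κ) = 3 := by simp
  have hne : ∀ i, bA A (v i) (v i) ≠ 0 := by
    intro i
    have := LinearMap.BilinForm.iIsOrtho.not_isOrtho_basis_self_of_nondegenerate hv hnd i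
    rw [← hB]
    exact this
  have hor : ∀ i j, i ≠ j → bA A (v i) (v j) = 0 := by
    intro i j hij
    rw [← hB]
    exact hv hij
  set u0 := v ⟨0, by rw [hfr]; norm_num⟩ with hu0
  set u1 := v ⟨1, by rw [hfr]; norm_num⟩ with hu1
  set u2 := v ⟨2, by rw [hfr]; norm_num⟩ with hu2
  have a0 : bA A u0 u0 ≠ 0 := hne _
  have a1 : bA A u1 u1 ≠ 0 := hne _
  have a2 : bA A u2 u2 ≠ 0 := hne _
  have o01 : bA A u0 u1 = 0 := hor _ _ (by simp)
  have o12 : bA A u1 u2 = 0 := hor _ _ (by simp)
  have o20 : bA A u2 u0 = 0 := hor _ _ (by simp)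
  set I := bE E u0 u1 with hI
  set J := bE E u1 u2 with hJ
  have half : ∀ X Y : Module.End κ V, ∀ c : κ, X + X = (2 * c) • Y → X = c • Y := by
    intro X Y c h
    have h' : (2 : κ) • X = (2 : κ) • (c • Y) := by
      rw [two_smul, h, smul_smul]
    exact smul_right_injective _ h2 h'
  have r01 : bE E u1 u0 = - I := by
    have := bE_add E A h1 u0 u1
    rw [o01, mul_zero, zero_smul] at this
    exact eq_neg_of_add_eq_zero_right this
  have r12 : bE E u2 u1 = - J := by
    have := bE_add E A h1 u1 u2
    rw [o12, mul_zero, zero_smul] at this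
    exact eq_neg_of_add_eq_zero_right this
  have rr : ∀ x, bE E x x = bA A x x • (1 : Module.End κ V) := by
    intro x
    exact half _ _ _ (bE_add E A h1 x x)
  have hII : I * I = (-(bA A u0 u0 * bA A u1 u1)) • (1 : Module.End κ V) := by
    have h := half _ _ _ (bE_mul_add E A h3 u0 u1 u1 u0)
    rw [r01, rr, smul_smul, mul_neg] at h
    rw [neg_eq_iff_eq_neg] at h
    rw [h, neg_smul, mul_comm]
  have hJJ : J * J = (-(bA A u1 u1 * bA A u2 u2)) • (1 : Module.End κ V) := by
    have h := half _ _ _ (bE_mul_add E A h3 u1 u2 u2 u1)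
    rw [r12, rr, smul_smul, mul_neg] at h
    rw [neg_eq_iff_eq_neg] at h
    rw [h, neg_smul, mul_comm]
  have hIJ : J * I = - (I * J) := by
    have h := bE_mul_add E A h3 u1 u2 u0 u1
    rw [o20, mul_zero, zero_smul, r01, r12, neg_mul_neg] at h
    exact eq_neg_of_add_eq_zero_left h
  have hd : LinearMap.det J * LinearMap.det I
      = (-1) ^ finrank κ V * (LinearMap.det I * LinearMap.det J) := by
    rw [← map_mul, hIJ, ← map_mul]
    have : -(I * J) = (-1 : κ) • (I * J) := by simp
    rw [this, LinearMap.det_smul]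
  have hdI : LinearMap.det I ≠ 0 := by
    intro h0
    have h := congrArg LinearMap.det hII
    rw [map_mul, h0, mul_zero, LinearMap.det_smul, map_one, mul_one] at h
    exact pow_ne_zero _ (neg_ne_zero.mpr (mul_ne_zero a0 a1)) h.symm
  have hdJ : LinearMap.det J ≠ 0 := by
    intro h0
    have h := congrArg LinearMap.det hJJ
    rw [map_mul, h0, mul_zero, LinearMap.det_smul, map_one, mul_one] at h
    exact pow_ne_zero _ (neg_ne_zero.mpr (mul_ne_zero a1 a2)) h.symm
  by_contra hodd
  rw [Nat.not_even_iff_odd] at hodd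
  rw [hodd.neg_one_pow, mul_comm (LinearMap.det J)] at hd
  have hz : (2 : κ) * (LinearMap.det I * LinearMap.det J) = 0 := by
    linear_combination hd
  exact mul_ne_zero h2 (mul_ne_zero hdI hdJ) hz

end field

section main

universe u v w

variable {k : Type u} {R : Type v} [Field k] [CommRing R] [Algebra k R]

omit [Field k] [Algebra k R] in
/-- the case of a module over a residue field -/
theorem residue_even (m : Ideal R) [m.IsMaximal] (h2 : (2 : R ⧸ m) ≠ 0)
    (A : Matrix (Fin 3) (Fin 3) R) (hA : A.IsSymm) (hdet : A.det ∉ m)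
    (Q : Type w) [AddCommGroup Q] [Module R Q] [Module (R ⧸ m) Q] [IsScalarTower R (R ⧸ m) Q]
    [Module.Finite (R ⧸ m) Q] (E : Fin 3 → Fin 3 → Module.End R Q)
    (h1 : ∀ i j t, E i j t + E j i t = (2 * A i j) • t)
    (h3 : ∀ i j l p t, E i j (E l p t) + E i l (E j p t) = (2 * A j l) • E i p t) :
    Even (finrank (R ⧸ m) Q) := by
  let _ : Field (R ⧸ m) := Ideal.Quotient.field m
  have e0 : ∀ (x : R) (q : Q), (Ideal.Quotient.mk m x) • q = x • q := by
    intro x q
    exact algebraMap_smul (R ⧸ m) x q
  let F : Fin 3 → Fin 3 → Module.End (R ⧸ m) Q := fun i j =>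
    { toFun := E i j
      map_add' := map_add _
      map_smul' := by
        intro x q
        obtain ⟨r, rfl⟩ := Ideal.Quotient.mk_surjective x
        simp only [RingHom.id_apply]
        rw [e0, e0, map_smul] }
  have hF : ∀ i j q, F i j q = E i j q := fun _ _ _ => rfl
  refine field_even h2 (A.map (Ideal.Quotient.mk m)) ?_ ?_ F ?_ ?_
  · ext i j
    simp [hA.apply i j]
  · rw [← RingHom.mapMatrix_apply, ← RingHom.map_det]
    rw [Ne, Ideal.Quotient.eq_zero_iff_mem]
    exact hdet
  · intro i j
    ext q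
    have e2 : (2 * (A.map (Ideal.Quotient.mk m)) i j : R ⧸ m)
        = Ideal.Quotient.mk m (2 * A i j) := by
      rw [Matrix.map_apply, map_mul, map_ofNat]
    rw [e2]
    simp only [LinearMap.add_apply, LinearMap.smul_apply, Module.End.one_apply, hF, e0]
    exact h1 i j q
  · intro i j l p
    ext q
    have e2 : (2 * (A.map (Ideal.Quotient.mk m)) j l : R ⧸ m)
        = Ideal.Quotient.mk m (2 * A j l) := by
      rw [Matrix.map_apply, map_mul, map_ofNat]
    rw [e2]
    simp only [LinearMap.add_apply, LinearMap.smul_apply, Module.End.mul_apply, hF, e0]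
    exact h3 i j l p q

/-- **Evenness**, inductive form. -/
theorem even_finrank_aux (h2 : (2 : k) ≠ 0) (A : Matrix (Fin 3) (Fin 3) R) (hA : A.IsSymm) :
    ∀ (n : ℕ) (T : Type w) [AddCommGroup T] [Module k T] [Module R T] [IsScalarTower k R T]
      [FiniteDimensional k T] (E : Fin 3 → Fin 3 → Module.End R T)
      (_ : ∀ i j t, E i j t + E j i t = (2 * A i j) • t)
      (_ : ∀ i j l m t, E i j (E l m t) + E i l (E j m t) = (2 * A j l) • E i m t)
      (_ : ∀ t : T, A.det • t = 0 → t = 0) (_ : finrank k T = n), Even n := by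
  intro n
  induction n using Nat.strong_induction_on with
  | _ n ih =>
  intro T _ _ _ _ _ E h1 h3 hd hn
  rcases subsingleton_or_nontrivial T with hT | hT
  · rw [← hn, finrank_zero_of_subsingleton]
    exact Even.zero
  have : Module.Finite R T := Module.Finite.of_restrictScalars_finite k R T
  -- a simple quotient
  obtain ⟨N, hN⟩ := IsCoatomic.exists_coatom (Submodule R T)
  have hsimple : IsSimpleModule R (T ⧸ N) := by
    rw [isSimpleModule_iff_isCoatom]
    exact hN
  obtain ⟨m, hm, ⟨e⟩⟩ := isSimpleModule_iff_quot_maximal.mp hsimple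
  set S : Submodule R T := m • (⊤ : Submodule R T) with hS
  have hSN : S ≤ N := by
    refine Submodule.smul_le.mpr ?_
    intro r hr t _
    rw [← Submodule.Quotient.mk_eq_zero]
    apply e.injective
    rw [map_zero, Submodule.Quotient.mk_smul, map_smul]
    obtain ⟨x, hx⟩ := Ideal.Quotient.mk_surjective (e (Submodule.Quotient.mk t))
    rw [← hx]
    have : r • (Ideal.Quotient.mk m x) = Ideal.Quotient.mk m (r * x) := by
      rw [map_mul]; rfl
    rw [this, Ideal.Quotient.eq_zero_iff_mem]
    exact m.mul_mem_right _ hr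
  have hSne : S ≠ ⊤ := fun h => hN.1 (top_le_iff.mp (h ▸ hSN))
  have hES : ∀ i j, S ≤ S.comap (E i j) := by
    intro i j
    rw [← Submodule.map_le_iff_le_comap, hS, Submodule.map_smul'']
    exact Submodule.smul_mono le_rfl le_top
  -- the two pieces
  have hdim : finrank k (T ⧸ S) + finrank k S = finrank k T := by
    have h := LinearMap.finrank_range_add_finrank_ker (S.mkQ.restrictScalars k)
    have hr : LinearMap.range (S.mkQ.restrictScalars k) = ⊤ := by
      rw [LinearMap.range_eq_top]
      exact Submodule.mkQ_surjective S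
    have hk : LinearMap.ker (S.mkQ.restrictScalars k) = S.restrictScalars k := by
      ext t
      simp
    rw [hr, hk, finrank_top] at h
    exact h
  have hfinQ : FiniteDimensional k (T ⧸ S) :=
    Module.Finite.of_surjective (S.mkQ.restrictScalars k) (Submodule.mkQ_surjective S)
  have hfinS : FiniteDimensional k S :=
    inferInstanceAs (FiniteDimensional k (S.restrictScalars k))
  have hQnt : Nontrivial (T ⧸ S) := Submodule.Quotient.nontrivial_iff.mpr hSne
  have hQpos : 0 < finrank k (T ⧸ S) := finrank_pos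
  have hSlt : finrank k S < n := by omega
  have hSeven : Even (finrank k S) := by
    refine ih _ hSlt S (fun i j => (E i j).restrict (hES i j)) ?_ ?_ ?_ rfl
    · intro i j t
      apply Subtype.ext
      exact h1 i j t
    · intro i j l m t
      apply Subtype.ext
      exact h3 i j l m t
    · intro t ht
      apply Subtype.ext
      exact hd t (congrArg Subtype.val ht)
  -- the quotient is a vector space over the residue field
  let _ : Field (R ⧸ m) := Ideal.Quotient.field m
  have ht1 : IsScalarTower k (R ⧸ m) (T ⧸ S) := by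
    refine ⟨fun c x q => ?_⟩
    obtain ⟨r, rfl⟩ := Ideal.Quotient.mk_surjective x
    obtain ⟨t, rfl⟩ := Submodule.mkQ_surjective S q
    have e1 : c • (Ideal.Quotient.mk m r) = Ideal.Quotient.mk m (c • r) := rfl
    have e2 : ∀ x : R, (Ideal.Quotient.mk m x) • (S.mkQ t) = S.mkQ (x • t) := fun x => rfl
    rw [e1, e2, e2, smul_assoc]
    rfl
  have hfinQ' : FiniteDimensional (R ⧸ m) (T ⧸ S) :=
    Module.Finite.of_restrictScalars_finite k (R ⧸ m) (T ⧸ S)
  have h2' : (2 : R ⧸ m) ≠ 0 := by
    have h := (algebraMap k (R ⧸ m)).injective.ne h2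
    rwa [map_zero, map_ofNat] at h
  have hdet : A.det ∉ m := by
    intro hmem
    apply hSne
    rw [eq_top_iff]
    intro t _
    let L : T →ₗ[k] T :=
      { toFun := fun t => A.det • t
        map_add' := fun a b => smul_add _ a b
        map_smul' := fun c t => by
          simp only [RingHom.id_apply]
          exact (smul_comm c A.det t).symm }
    have hL : Function.Injective L := by
      rw [injective_iff_map_eq_zero]
      exact hd
    obtain ⟨t', rfl⟩ := (LinearMap.injective_iff_surjective.mp hL) t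
    exact Submodule.smul_mem_smul hmem trivial
  have ht2 : IsScalarTower R (R ⧸ m) (T ⧸ S) := by
    refine ⟨fun c x q => ?_⟩
    obtain ⟨r, rfl⟩ := Ideal.Quotient.mk_surjective x
    obtain ⟨t, rfl⟩ := Submodule.mkQ_surjective S q
    have e1 : c • (Ideal.Quotient.mk m r) = Ideal.Quotient.mk m (c • r) := rfl
    have e2 : ∀ x : R, (Ideal.Quotient.mk m x) • (S.mkQ t) = S.mkQ (x • t) := fun x => rfl
    rw [e1, e2, e2, smul_assoc]
    rfl
  have hQeven : Even (finrank (R ⧸ m) (T ⧸ S)) := by
    refine residue_even m h2' A hA hdet (T ⧸ S) (fun i j => S.mapQ S (E i j) (hES i j)) ?_ ?_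
    · intro i j q
      obtain ⟨t, rfl⟩ := Submodule.mkQ_surjective S q
      exact congrArg S.mkQ (h1 i j t)
    · intro i j l p q
      obtain ⟨t, rfl⟩ := Submodule.mkQ_surjective S q
      exact congrArg S.mkQ (h3 i j l p t)
  have hmul : finrank k (R ⧸ m) * finrank (R ⧸ m) (T ⧸ S) = finrank k (T ⧸ S) :=
    Module.finrank_mul_finrank k (R ⧸ m) (T ⧸ S)
  rw [← hn, ← hdim, ← hmul]
  exact (hQeven.mul_left _).add hSeven

/-- **Block [E], evenness**: a finite dimensional module over the even Clifford algebra of a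
ternary quadratic form whose determinant acts injectively has even dimension. -/
theorem even_finrank (h2 : (2 : k) ≠ 0) (A : Matrix (Fin 3) (Fin 3) R) (hA : A.IsSymm)
    (T : Type w) [AddCommGroup T] [Module k T] [Module R T] [IsScalarTower k R T]
    [FiniteDimensional k T] (E : Fin 3 → Fin 3 → Module.End R T)
    (h1 : ∀ i j t, E i j t + E j i t = (2 * A i j) • t)
    (h3 : ∀ i j l m t, E i j (E l m t) + E i l (E j m t) = (2 * A j l) • E i m t)
    (hd : ∀ t : T, A.det • t = 0 → t = 0) : Even (finrank k T) :=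
  even_finrank_aux h2 A hA _ T E h1 h3 hd rfl

end main

end Vale.Agent.P287.H589
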