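import Vale.Agent.P287.H631.SpringerQ
import Vale.Agent.P287.H631.Scale
import Vale.Agent.P287.FunctionField

/-! Block [O] of the odd theta blueprint of P287: a module of odd dimension has a residue field of
odd degree; together with Springer's theorem it gives a rational point of a quadric. -/

namespace Vale.Agent.P287.H589

open Module MvPolynomial Vale.Agent.P287

section residue

universe u v w

variable {k : Type u} {R : Type v} [Field k] [CommRing R] [Algebra k R]

theorem exists_odd_residue_aux :
    ∀ (n : ℕ) (T : Type w) [AddCommGroup T] [Module k T] [Module R T] [IsScalarTower k R T]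
      [FiniteDimensional k T] (_ : finrank k T = n), Odd n →
      ∃ m : Ideal R, m.IsMaximal ∧ Module.annihilator R T ≤ m ∧ FiniteDimensional k (R ⧸ m) ∧
        Odd (finrank k (R ⧸ m)) := by
  intro n
  induction n using Nat.strong_induction_on with
  | _ n ih =>
  intro T _ _ _ _ _ hn hodd
  have hT : Nontrivial T := by
    by_contra h
    rw [not_nontrivial_iff_subsingleton] at h
    rw [finrank_zero_of_subsingleton] at hn
    rw [← hn] at hodd
    exact absurd hodd (by decide)
  have : Module.Finite R T := Module.Finite.of_restrictScalars_finite k R T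
  obtain ⟨N, hN⟩ := IsCoatomic.exists_coatom (Submodule R T)
  have hsimple : IsSimpleModule R (T ⧸ N) := by
    rw [isSimpleModule_iff_isCoatom]
    exact hN
  obtain ⟨m, hm, ⟨e⟩⟩ := isSimpleModule_iff_quot_maximal.mp hsimple
  have hdim : finrank k (T ⧸ N) + finrank k N = finrank k T := by
    have h := LinearMap.finrank_range_add_finrank_ker (N.mkQ.restrictScalars k)
    have hr : LinearMap.range (N.mkQ.restrictScalars k) = ⊤ := by
      rw [LinearMap.range_eq_top]
      exact Submodule.mkQ_surjective N
    have hk : LinearMap.ker (N.mkQ.restrictScalars k) = N.restrictScalars k := by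
      ext t
      simp
    rw [hr, hk, finrank_top] at h
    exact h
  have hfinQ : FiniteDimensional k (T ⧸ N) :=
    Module.Finite.of_surjective (N.mkQ.restrictScalars k) (Submodule.mkQ_surjective N)
  have hfinN : FiniteDimensional k N :=
    inferInstanceAs (FiniteDimensional k (N.restrictScalars k))
  have hQnt : Nontrivial (T ⧸ N) := Submodule.Quotient.nontrivial_iff.mpr hN.1
  have hQpos : 0 < finrank k (T ⧸ N) := finrank_pos
  have e' : (T ⧸ N) ≃ₗ[k] (R ⧸ m) := e.restrictScalars k
  rcases Nat.even_or_odd (finrank k (T ⧸ N)) with hev | hod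
  · have hNlt : finrank k N < n := by omega
    have hNodd : Odd (finrank k N) := by
      rw [← hn, ← hdim] at hodd
      rcases Nat.even_or_odd (finrank k N) with h | h
      · exact absurd (hev.add h) (Nat.not_even_iff_odd.mpr hodd)
      · exact h
    obtain ⟨m', h1, h2, h3⟩ := ih _ hNlt N rfl hNodd
    refine ⟨m', h1, le_trans ?_ h2, h3⟩
    intro r hr
    rw [Module.mem_annihilator] at hr ⊢
    intro t
    apply Subtype.ext
    exact hr t
  · refine ⟨m, hm, ?_, Module.Finite.equiv e', ?_⟩
    · intro r hr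
      rw [Module.mem_annihilator] at hr
      have h1 : ∀ q : T ⧸ N, r • q = 0 := by
        intro q
        obtain ⟨t, rfl⟩ := Submodule.mkQ_surjective N q
        rw [← map_smul, hr, map_zero]
      have h2 : r • (1 : R ⧸ m) = 0 := by
        obtain ⟨q, hq⟩ := e.surjective 1
        rw [← hq, ← map_smul, h1, map_zero]
      rw [← Ideal.Quotient.eq_zero_iff_mem, ← h2, Algebra.smul_def, mul_one]
      rfl
    · rwa [← e'.finrank_eq]

/-- A module of odd dimension over a commutative algebra has a residue field of odd degree. -/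
theorem exists_odd_residue (T : Type w) [AddCommGroup T] [Module k T] [Module R T]
    [IsScalarTower k R T] (hodd : Odd (finrank k T)) :
    ∃ m : Ideal R, m.IsMaximal ∧ Module.annihilator R T ≤ m ∧ FiniteDimensional k (R ⧸ m) ∧
      Odd (finrank k (R ⧸ m)) := by
  have : FiniteDimensional k T := Module.finite_of_finrank_pos hodd.pos
  exact exists_odd_residue_aux _ T rfl hodd

end residue

section endo

/-- The same with an endomorphism whose square is a scalar. -/
theorem exists_odd_field {F B T : Type} [Field F] [CommRing B] [Algebra F B] [AddCommGroup T]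
    [Module F T] [Module B T] [IsScalarTower F B T] (hodd : Odd (finrank F T))
    (S : Module.End B T) (a : B) (hS : ∀ x, S (S x) = a • x) :
    ∃ (E : Type) (_ : Field E) (_ : Algebra F E) (φ : B →ₐ[F] E) (σ : E),
      Odd (finrank F E) ∧ σ ^ 2 = φ a := by
  let _ : Module (Polynomial B) T := inferInstanceAs (Module (Polynomial B) (Module.AEval' S))
  have hC : ∀ (b : B) (t : T), (Polynomial.C b) • t = b • t := by
    intro b t
    exact Module.AEval.C_smul (R := B) (M := T) S b t
  have hX : ∀ t : T, (Polynomial.X : Polynomial B) • t = S t := by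
    intro t
    exact Module.AEval'.X_smul_of S t
  have hst : IsScalarTower F (Polynomial B) T := by
    refine ⟨fun c p t => ?_⟩
    rw [Algebra.smul_def, mul_smul]
    have h1 : algebraMap F (Polynomial B) c = Polynomial.C (algebraMap F B c) := rfl
    rw [h1, hC, algebraMap_smul]
  obtain ⟨m, hm, hann, hfin, hod⟩ := exists_odd_residue (k := F) (R := Polynomial B) T hodd
  let _ : Field (Polynomial B ⧸ m) := Ideal.Quotient.field m
  refine ⟨Polynomial B ⧸ m, inferInstance, inferInstance,
    (Ideal.Quotient.mkₐ F m).comp (Algebra.ofId B (Polynomial B) |>.restrictScalars F),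
    Ideal.Quotient.mk m Polynomial.X, hod, ?_⟩
  have hmem : (Polynomial.X : Polynomial B) ^ 2 - Polynomial.C a ∈ m := by
    apply hann
    rw [Module.mem_annihilator]
    intro t
    rw [sub_smul, hC, pow_two, mul_smul, hX, hX, hS, sub_self]
  have h := Ideal.Quotient.eq_zero_iff_mem.mpr hmem
  rw [map_sub, map_pow, sub_eq_zero] at h
  exact h

end endo

section springer

/-- Springer's theorem, isotropic form. -/
theorem springer_isotropic {k E : Type} [Field k] [Field E] [Algebra k E] [CharZero k]
    (hodd : Odd (finrank k E)) {n : ℕ} (Q : Matrix (Fin n) (Fin n) k)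
    (v : Fin n → E) (hv0 : v ≠ 0) (hv : qf Q v = 0) :
    ∃ w : Fin n → k, w ≠ 0 ∧ qf Q w = 0 := by
  obtain ⟨n', P, P', d, hPP', hP'P, hd⟩ := H631.exists_diag Q
  have hvw : act P (act P' v) = v := by rw [← act_mul, hPP', act_one]
  have hw0 : act P' v ≠ 0 := by
    intro h
    apply hv0
    rw [← hvw, h]
    funext i
    simp [act]
  rw [← hvw, H631.diag_map hd] at hv
  obtain ⟨w, hw, hwq⟩ := H631.springer_diag hodd d _ hw0 hv
  refine ⟨act P w, ?_, ?_⟩
  · intro h
    apply hw
    have h1 : act P' (act P w) = w := by rw [← act_mul, hP'P, act_one]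
    rw [← h1, h]
    funext i
    simp [act]
  · rw [hd]
    exact hwq

/-- The values of the matrix of quadrics `A` at `(x, x; t)`. -/
noncomputable def axt {F B : Type*} [Field F] [CommRing B] [Algebra F B] [Algebra ℂ B]
    (A : Matrix (Fin 3) (Fin 3) (MvPolynomial (Fin 3) ℂ)) (x : Fin 3 → F) (t : Fin 3 → B) : B :=
  ∑ i, ∑ j, algebraMap F B (x i * x j) * aeval t (A i j)

/-- The matrix of `s² - A(x, x; t)`. -/
theorem exists_matrix {F : Type} [Field F] [Algebra ℂ F]
    (A : Matrix (Fin 3) (Fin 3) (MvPolynomial (Fin 3) ℂ)) (hA : ∀ i j, (A i j).IsHomogeneous 2)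
    (x : Fin 3 → F) :
    ∃ Q : Matrix (Fin 4) (Fin 4) F, ∀ (B : Type) [CommRing B] [Algebra F B] [Algebra ℂ B]
      [IsScalarTower ℂ F B] (s : B) (t : Fin 3 → B),
      qf Q (Fin.cons s t : Fin 4 → B) = s ^ 2 - axt A x t := by
  choose Φ hΦ1 hΦ2 using fun i j => H631.exists_sym_of_homog (A i j) (hA i j)
  let Ψ : Fin 3 → Fin 3 → F := fun a b => ∑ i, ∑ j, x i * x j * algebraMap ℂ F (Φ i j a b)
  refine ⟨fun a b => Fin.cases (Fin.cases 1 (fun _ => 0) b)
    (fun a' => Fin.cases 0 (fun b' => - Ψ a' b') b) a, ?_⟩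
  intro B _ _ _ _ s t
  have h1 : ∀ i j, aeval t (A i j) = ∑ a, ∑ b, algebraMap ℂ B (Φ i j a b) * (t a * t b) := by
    intro i j
    rw [hΦ2 i j, map_qf]
    simp [qf]
  have h2 : axt A x t = ∑ a, ∑ b, algebraMap F B (Ψ a b) * (t a * t b) := by
    simp only [axt, h1, Ψ, map_sum, map_mul, Finset.sum_mul, Finset.mul_sum,
      ← IsScalarTower.algebraMap_apply ℂ F B]
    have h3 : ∀ g : Fin 3 → Fin 3 → Fin 3 → Fin 3 → B,
        ∑ i, ∑ j, ∑ a, ∑ b, g i j a b = ∑ a, ∑ b, ∑ i, ∑ j, g i j a b := by
      intro g
      calc ∑ i, ∑ j, ∑ a, ∑ b, g i j a b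
          = ∑ i, ∑ a, ∑ j, ∑ b, g i j a b :=
            Finset.sum_congr rfl fun i _ => Finset.sum_comm
        _ = ∑ a, ∑ i, ∑ j, ∑ b, g i j a b := Finset.sum_comm
        _ = ∑ a, ∑ i, ∑ b, ∑ j, g i j a b :=
            Finset.sum_congr rfl fun a _ => Finset.sum_congr rfl fun i _ => Finset.sum_comm
        _ = ∑ a, ∑ b, ∑ i, ∑ j, g i j a b :=
            Finset.sum_congr rfl fun a _ => Finset.sum_comm
    rw [h3]
    refine Finset.sum_congr rfl fun a _ => Finset.sum_congr rfl fun b _ =>
      Finset.sum_congr rfl fun i _ => Finset.sum_congr rfl fun j _ => ?_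
    ring
  rw [h2]
  simp only [qf, Fin.sum_univ_succ (n := 3), Fin.cases_zero, Fin.cases_succ, Fin.cons_zero,
    Fin.cons_succ, map_one, map_zero, zero_mul, Finset.sum_const_zero, add_zero, zero_add, map_neg,
    neg_mul, Finset.sum_neg_distrib]
  ring

/-- **Block [O].** Let `T` be a finite dimensional module of odd dimension over an `F`-algebra `B`,
`t` a vector over `B` with an invertible coordinate and `S` a `B`-endomorphism of `T` with square
`A(x, x; t)`; then the quadric `s² = A(x, x; t)` has a rational point over `F`. -/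
theorem odd_point {F : Type} [Field F] [Algebra ℂ F]
    (A : Matrix (Fin 3) (Fin 3) (MvPolynomial (Fin 3) ℂ)) (hA : ∀ i j, (A i j).IsHomogeneous 2)
    (x : Fin 3 → F) {B T : Type} [CommRing B] [Algebra F B] [Algebra ℂ B] [IsScalarTower ℂ F B]
    [AddCommGroup T] [Module F T] [Module B T] [IsScalarTower F B T] (hodd : Odd (finrank F T))
    (t : Fin 3 → B) (ht : ∃ i, IsUnit (t i)) (S : Module.End B T)
    (hS : ∀ u, S (S u) = axt A x t • u) :
    ∃ (s' : F) (t' : Fin 3 → F), (s', t') ≠ 0 ∧
      s' ^ 2 = ∑ i, ∑ j, x i * x j * aeval t' (A i j) := by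
  have : CharZero F := charZero_of_injective_algebraMap (algebraMap ℂ F).injective
  obtain ⟨E, _, _, φ, σ, hE, hσ⟩ := exists_odd_field hodd S _ hS
  let _ : Algebra ℂ E := ((algebraMap F E).comp (algebraMap ℂ F)).toAlgebra
  have : IsScalarTower ℂ F E := IsScalarTower.of_algebraMap_eq fun _ => rfl
  obtain ⟨Q, hQ⟩ := exists_matrix A hA x
  have hφ : φ (axt A x t) = axt A x (fun i => φ (t i)) := by
    simp only [axt, map_sum, map_mul, AlgHom.commutes]
    refine Finset.sum_congr rfl fun i _ => Finset.sum_congr rfl fun j _ => ?_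
    congr 1
    exact (MvPolynomial.comp_aeval_apply t (φ.restrictScalars ℂ) (A i j)).symm ▸ rfl
  have h0 : (Fin.cons σ (fun i => φ (t i)) : Fin 4 → E) ≠ 0 := by
    intro h
    obtain ⟨i, hi⟩ := ht
    have := congrFun h i.succ
    rw [Fin.cons_succ] at this
    exact (hi.map φ).ne_zero this
  obtain ⟨w, hw0, hw⟩ := springer_isotropic hE Q _ h0 (by rw [hQ E, hσ, hφ, sub_self])
  have hw' : (Fin.cons (w 0) (fun i => w i.succ) : Fin 4 → F) = w := Fin.cons_self_tail w
  refine ⟨w 0, fun i => w i.succ, ?_, ?_⟩
  · intro h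
    apply hw0
    rw [← hw']
    have h1 : w 0 = 0 := congrArg Prod.fst h
    have h2 : (fun i : Fin 3 => w i.succ) = 0 := congrArg Prod.snd h
    rw [h1, h2]
    funext i
    refine Fin.cases ?_ (fun j => ?_) i <;> simp
  · rw [← hw', hQ F, sub_eq_zero] at hw
    rw [hw]
    simp [axt]

end springer

end Vale.Agent.P287.H589
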