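import Vale.Agent.P287.Odd.Spec

/-! Block [J] of the odd theta theorem: the two commuting operators. -/

namespace Vale.Agent.P287.H589

open Matrix Module Vale.Agent.P287.Odd

section ident

variable {R : Type} [CommRing R]

omit [CommRing R] in
theorem av_cons (c : R) (a : Fin 3 → R) : av (Fin.cons c a : Fin 4 → R) = a := rfl

/-- The operator `v = (c, a) ↦ (f (x a), c A x - x × adj(A) a)`. -/
def sop (f : R) (A : Matrix (Fin 3) (Fin 3) R) (x : Fin 3 → R) (v : Fin 4 → R) : Fin 4 → R :=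
  Fin.cons (f * (x ⬝ᵥ av v)) (v 0 • (A *ᵥ x) - crossProduct x (A.adjugate *ᵥ av v))

theorem sop_zero (f : R) (A : Matrix (Fin 3) (Fin 3) R) (x : Fin 3 → R) (v : Fin 4 → R) :
    sop f A x v 0 = f * (x ⬝ᵥ av v) := rfl

theorem av_sop (f : R) (A : Matrix (Fin 3) (Fin 3) R) (x : Fin 3 → R) (v : Fin 4 → R) :
    av (sop f A x v) = v 0 • (A *ᵥ x) - crossProduct x (A.adjugate *ᵥ av v) := rfl

/-- The operator as a linear map. -/
def sopL (f : R) (A : Matrix (Fin 3) (Fin 3) R) (x : Fin 3 → R) :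
    (Fin 4 → R) →ₗ[R] (Fin 4 → R) where
  toFun := sop f A x
  map_add' := by
    intro v w
    funext i
    refine Fin.cases ?_ (fun j => ?_) i
    · simp only [sop, Fin.cons_zero, av_add, dotProduct_add, Pi.add_apply]
      ring
    · simp only [sop, Fin.cons_succ, av_add, mulVec_add, map_add, Pi.add_apply, Pi.sub_apply,
        Pi.smul_apply, smul_eq_mul]
      ring
  map_smul' := by
    intro c v
    funext i
    refine Fin.cases ?_ (fun j => ?_) i
    · simp only [sop, Fin.cons_zero, av_smul, dotProduct_smul, Pi.smul_apply, smul_eq_mul,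
        RingHom.id_apply]
      ring
    · simp only [sop, Fin.cons_succ, av_smul, mulVec_smul, map_smul, Pi.sub_apply,
        Pi.smul_apply, smul_eq_mul, RingHom.id_apply]
      ring

theorem cr0 (u v : Fin 3 → R) : (crossProduct u v) 0 = u 1 * v 2 - u 2 * v 1 := by
  simp [cross_apply]

theorem cr1 (u v : Fin 3 → R) : (crossProduct u v) 1 = u 2 * v 0 - u 0 * v 2 := by
  simp [cross_apply]

theorem cr2 (u v : Fin 3 → R) : (crossProduct u v) 2 = u 0 * v 1 - u 1 * v 0 := by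
  simp [cross_apply]

theorem mv (A : Matrix (Fin 3) (Fin 3) R) (v : Fin 3 → R) (i : Fin 3) :
    (A *ᵥ v) i = A i 0 * v 0 + A i 1 * v 1 + A i 2 * v 2 := by
  simp [mulVec, dotProduct, Fin.sum_univ_three]

theorem dp (u v : Fin 3 → R) : u ⬝ᵥ v = u 0 * v 0 + u 1 * v 1 + u 2 * v 2 := by
  simp [dotProduct, Fin.sum_univ_three]

section sym

variable (A : Matrix (Fin 3) (Fin 3) R)

theorem ad00 : A.adjugate 0 0 = A 1 1 * A 2 2 - A 1 2 * A 2 1 := by
  simp [adjugate_fin_three]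

theorem ad01 : A.adjugate 0 1 = -(A 0 1 * A 2 2) + A 0 2 * A 2 1 := by
  simp [adjugate_fin_three]

theorem ad02 : A.adjugate 0 2 = A 0 1 * A 1 2 - A 0 2 * A 1 1 := by
  simp [adjugate_fin_three]

theorem ad10 : A.adjugate 1 0 = -(A 1 0 * A 2 2) + A 1 2 * A 2 0 := by
  simp [adjugate_fin_three]

theorem ad11 : A.adjugate 1 1 = A 0 0 * A 2 2 - A 0 2 * A 2 0 := by
  simp [adjugate_fin_three]

theorem ad12 : A.adjugate 1 2 = -(A 0 0 * A 1 2) + A 0 2 * A 1 0 := by
  simp [adjugate_fin_three]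

theorem ad20 : A.adjugate 2 0 = A 1 0 * A 2 1 - A 1 1 * A 2 0 := by
  simp [adjugate_fin_three]

theorem ad21 : A.adjugate 2 1 = -(A 0 0 * A 2 1) + A 0 1 * A 2 0 := by
  simp [adjugate_fin_three]

theorem ad22 : A.adjugate 2 2 = A 0 0 * A 1 1 - A 0 1 * A 1 0 := by
  simp [adjugate_fin_three]

end sym

theorem ident1 (A : Matrix (Fin 3) (Fin 3) R) (hA : A.IsSymm) (c : R) (x a : Fin 3 → R) :
    A.adjugate *ᵥ (c • (A *ᵥ x) - crossProduct x (A.adjugate *ᵥ a)) =
      A.det • (c • x - crossProduct (A *ᵥ x) a) := by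
  have h10 : A 1 0 = A 0 1 := hA.apply 0 1
  have h20 : A 2 0 = A 0 2 := hA.apply 0 2
  have h21 : A 2 1 = A 1 2 := hA.apply 1 2
  funext i
  fin_cases i <;>
  · simp only [Fin.zero_eta, Fin.mk_one, Fin.reduceFinMk, cr0, cr1, cr2, mv, ad00, ad01, ad02,
      ad10, ad11, ad12, ad20, ad21, ad22, Pi.sub_apply, Pi.smul_apply, smul_eq_mul, h10, h20, h21,
      det_fin_three]
    ring

/-- the square of the operator, first coordinate -/
theorem ident2 (A : Matrix (Fin 3) (Fin 3) R) (c : R) (x a : Fin 3 → R) :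
    x ⬝ᵥ (c • (A *ᵥ x) - crossProduct x (A.adjugate *ᵥ a)) = c * (x ⬝ᵥ (A *ᵥ x)) := by
  simp only [cr0, cr1, cr2, mv, dp, Pi.sub_apply, Pi.smul_apply, smul_eq_mul]
  ring

/-- the square of the operator, last coordinates -/
theorem ident3 (x a y : Fin 3 → R) (c : R) :
    (x ⬝ᵥ a) • y + crossProduct x (c • x - crossProduct y a) = (x ⬝ᵥ y) • a := by
  funext i
  fin_cases i <;>
  · simp only [Fin.zero_eta, Fin.mk_one, Fin.reduceFinMk, cr0, cr1, cr2, dp,
      Pi.sub_apply, Pi.add_apply, Pi.smul_apply, smul_eq_mul]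
    ring

/-- the first condition of `modM` -/
theorem ident4 (A : Matrix (Fin 3) (Fin 3) R) (hA : A.IsSymm) (c : R) (x a ν : Fin 3 → R) :
    (c • (A *ᵥ x) - crossProduct x (A.adjugate *ᵥ a)) ⬝ᵥ ν =
      -((A *ᵥ x) ⬝ᵥ (crossProduct a (A *ᵥ ν) - c • ν)) := by
  have h10 : A 1 0 = A 0 1 := hA.apply 0 1
  have h20 : A 2 0 = A 0 2 := hA.apply 0 2
  have h21 : A 2 1 = A 1 2 := hA.apply 1 2
  simp only [cr0, cr1, cr2, mv, dp, ad00, ad01, ad02,
      ad10, ad11, ad12, ad20, ad21, ad22, Pi.sub_apply, Pi.smul_apply, smul_eq_mul, h10, h20, h21]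
  ring

/-- the second condition of `modM` -/
theorem ident5 (A : Matrix (Fin 3) (Fin 3) R) (hA : A.IsSymm) (c : R) (x a ν : Fin 3 → R) :
    crossProduct (c • (A *ᵥ x) - crossProduct x (A.adjugate *ᵥ a)) (A *ᵥ ν)
      - (-A.det * (x ⬝ᵥ a)) • ν =
      A.det • ((a ⬝ᵥ ν) • x) -
        A.adjugate *ᵥ (crossProduct x (crossProduct a (A *ᵥ ν) - c • ν)) := by
  have h10 : A 1 0 = A 0 1 := hA.apply 0 1
  have h20 : A 2 0 = A 0 2 := hA.apply 0 2
  have h21 : A 2 1 = A 1 2 := hA.apply 1 2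
  funext i
  fin_cases i <;>
  · simp only [Fin.zero_eta, Fin.mk_one, Fin.reduceFinMk, cr0, cr1, cr2, mv, dp, ad00, ad01, ad02,
      ad10, ad11, ad12, ad20, ad21, ad22, Pi.sub_apply, Pi.smul_apply, smul_eq_mul, h10, h20, h21,
      det_fin_three]
    ring

end ident

section ops

variable {R : Type} [CommRing R]

/-- The vectors divisible by `g`. -/
def gm (g : R) : Submodule R (Fin 4 → R) where
  carrier := {v | ∀ i, g ∣ v i}
  add_mem' := fun hv hw i => dvd_add (hv i) (hw i)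
  zero_mem' := fun _ => dvd_zero g
  smul_mem' := fun c _ hv i => (hv i).mul_left c

theorem mem_gm {g : R} {v : Fin 4 → R} : v ∈ gm g ↔ ∀ i, g ∣ v i := Iff.rfl

theorem gm_smul (g : R) (v : Fin 4 → R) : g • v ∈ gm g := fun i => Dvd.intro (v i) rfl

theorem exists_of_mem_gm {g : R} {v : Fin 4 → R} (hv : v ∈ gm g) : ∃ w, v = g • w := by
  choose w hw using hv
  exact ⟨w, funext hw⟩

theorem sopL_gm {g : R} (f : R) (A : Matrix (Fin 3) (Fin 3) R) (x : Fin 3 → R) {v : Fin 4 → R}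
    (hv : v ∈ gm g) : sopL f A x v ∈ gm g := by
  obtain ⟨w, rfl⟩ := exists_of_mem_gm hv
  rw [map_smul]
  exact gm_smul g _

variable {g f : R} {A : Matrix (Fin 3) (Fin 3) R} {J : Ideal R} {x ν : Fin 3 → R}

theorem gm_le_modP (hg : g ∈ J) : gm g ≤ modP g A J x := by
  intro v hv
  refine ⟨J.mem_of_dvd (hv 0) hg, 0, fun i => ?_⟩
  rw [zero_smul, sub_zero]
  exact hv i.succ

theorem modP_le_modX (hdet : A.det = -f) (hf : f ∈ J) (hg : g ∈ J) :
    modP g A J x ≤ modX A J := by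
  rintro v ⟨hv, β, hβ⟩
  refine ⟨hv, fun i => ?_⟩
  choose w hw using hβ
  have h1 : av v = β • (A *ᵥ x) + g • w := by
    rw [← sub_eq_iff_eq_add']
    exact funext hw
  have h2 : A.adjugate *ᵥ av v = (β * A.det) • x + g • (A.adjugate *ᵥ w) := by
    rw [h1, mulVec_add, mulVec_smul, mulVec_smul, mulVec_mulVec, adjugate_mul, smul_mulVec,
      one_mulVec, smul_smul]
  rw [h2, hdet]
  refine J.add_mem ?_ (J.mul_mem_right _ hg)
  rw [Pi.smul_apply, smul_eq_mul]
  refine J.mul_mem_right _ (J.mul_mem_left _ (J.neg_mem hf))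

theorem sop_mem_modX (hA : A.IsSymm) (hdet : A.det = -f) (hf : f ∈ J) (v : Fin 4 → R) :
    sopL f A x v ∈ modX A J := by
  refine ⟨J.mul_mem_right _ hf, fun i => ?_⟩
  have h : av (sopL f A x v) = v 0 • (A *ᵥ x) - crossProduct x (A.adjugate *ᵥ av v) := rfl
  rw [h, ident1 A hA, hdet]
  exact J.mul_mem_right _ (J.neg_mem hf)

theorem sop_mem_modM (hA : A.IsSymm) (hdet : A.det = -f) {v : Fin 4 → R}
    (hv : v ∈ modM g A ν) : sopL f A x v ∈ modM g A ν := by
  have h : av (sopL f A x v) = v 0 • (A *ᵥ x) - crossProduct x (A.adjugate *ᵥ av v) := rfl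
  have h0 : sopL f A x v 0 = -A.det * (x ⬝ᵥ av v) := by
    rw [hdet, neg_neg]
    rfl
  obtain ⟨hv1, hv2⟩ := hv
  obtain ⟨a, ha⟩ := hv1
  choose w hw using hv2
  have hw' : crossProduct (av v) (A *ᵥ ν) - v 0 • ν = g • w := funext hw
  refine ⟨?_, fun i => ?_⟩
  · rw [h, ident4 A hA, hw', dotProduct_smul, smul_eq_mul]
    exact (Dvd.intro _ rfl).neg_right
  · rw [h, h0, ident5 A hA, hw', ha, map_smul, mulVec_smul]
    refine dvd_sub ?_ (Dvd.intro _ rfl)
    rw [Pi.smul_apply, Pi.smul_apply, smul_eq_mul, smul_eq_mul, mul_assoc]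
    exact (Dvd.intro _ rfl).mul_left _

theorem cross_modP {v : Fin 4 → R} {β : R} {w : Fin 3 → R}
    (hw : av v = β • (A *ᵥ x) + g • w) :
    crossProduct x (A.adjugate *ᵥ av v) = g • crossProduct x (A.adjugate *ᵥ w) := by
  have h2 : A.adjugate *ᵥ av v = (β * A.det) • x + g • (A.adjugate *ᵥ w) := by
    rw [hw, mulVec_add, mulVec_smul, mulVec_smul, mulVec_mulVec, adjugate_mul, smul_mulVec,
      one_mulVec, smul_smul]
  rw [h2, map_add, map_smul, map_smul, cross_self, smul_zero, zero_add]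

theorem sop_mem_modP (hf : f ∈ J) {v : Fin 4 → R}
    (hv : v ∈ modP g A J x) : sopL f A x v ∈ modP g A J x := by
  obtain ⟨hv, β, hβ⟩ := hv
  choose w hw using hβ
  have h1 : av v = β • (A *ᵥ x) + g • w := by
    rw [← sub_eq_iff_eq_add']
    exact funext hw
  refine ⟨J.mul_mem_right _ hf, v 0, fun i => ?_⟩
  have h : av (sopL f A x v) = v 0 • (A *ᵥ x) - crossProduct x (A.adjugate *ᵥ av v) := rfl
  rw [h, cross_modP h1, sub_sub_cancel_left]
  exact (Dvd.intro _ rfl).neg_right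

/-- `w = (s₀ / f) S v` modulo `g`. -/
def Trel (g f s₀ : R) (A : Matrix (Fin 3) (Fin 3) R) (x : Fin 3 → R) (v w : Fin 4 → R) : Prop :=
  f • w - s₀ • sopL f A x v ∈ gm g

variable {s₀ c₀ : R}

theorem Trel.add {v v' w w' : Fin 4 → R} (h : Trel g f s₀ A x v w) (h' : Trel g f s₀ A x v' w') :
    Trel g f s₀ A x (v + v') (w + w') := by
  have := (gm g).add_mem h h'
  unfold Trel
  convert this using 1
  rw [map_add, smul_add, smul_add]
  abel

theorem Trel.smul {v w : Fin 4 → R} (c : R) (h : Trel g f s₀ A x v w) :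
    Trel g f s₀ A x (c • v) (c • w) := by
  have := (gm g).smul_mem c h
  unfold Trel
  convert this using 1
  rw [map_smul, smul_sub, smul_comm c f w, smul_comm c s₀]

theorem gm_cancel [IsDomain R] (hg : Prime g) (hgf : ¬ g ∣ f) {v : Fin 4 → R}
    (hv : f • v ∈ gm g) : v ∈ gm g := by
  intro i
  exact (hg.dvd_or_dvd (hv i)).resolve_left hgf

theorem Trel.unique [IsDomain R] (hg : Prime g) (hgf : ¬ g ∣ f) {v w w' : Fin 4 → R}
    (h : Trel g f s₀ A x v w) (h' : Trel g f s₀ A x v w') : w - w' ∈ gm g := by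
  apply gm_cancel hg hgf
  have := (gm g).sub_mem h h'
  convert this using 1
  rw [smul_sub]
  abel

theorem Trel.exists (hA : A.IsSymm) (hdet : A.det = -f) (hg : Prime g) (hgf : ¬ g ∣ f)
    (hgJ : g ∈ J) (hJ : ∀ a ∈ J, ∀ b ∈ J, a * b ∈ Ideal.span {f, g}) (hs : s₀ ∈ J)
    {v : Fin 4 → R} (hv : v ∈ modX A J) : ∃ w ∈ modX A J, Trel g f s₀ A x v w := by
  obtain ⟨hv0, hv1⟩ := hv
  obtain ⟨u, u', hu⟩ := Ideal.mem_span_pair.mp (hJ _ hs _ hv0)
  have h1 : ∀ i, ∃ a b, a * f + b * g = s₀ * (A.adjugate *ᵥ av v) i := fun i =>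
    Ideal.mem_span_pair.mp (hJ _ hs _ (hv1 i))
  choose a b hab using h1
  set w : Fin 4 → R := Fin.cons (s₀ * (x ⬝ᵥ av v)) (u • (A *ᵥ x) - crossProduct x a) with hw
  have e1 : s₀ • (A.adjugate *ᵥ av v) = f • a + g • b := by
    funext i
    have := hab i
    simp only [Pi.smul_apply, Pi.add_apply, smul_eq_mul]
    rw [← this]
    ring
  have hrel : Trel g f s₀ A x v w := by
    have : f • w - s₀ • sopL f A x v =
        g • (Fin.cons 0 (crossProduct x b - u' • (A *ᵥ x)) : Fin 4 → R) := by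
      have e2 : av (f • w - s₀ • sopL f A x v) = g • (crossProduct x b - u' • (A *ᵥ x)) := by
        have e3 : av (f • w - s₀ • sopL f A x v) = f • (u • (A *ᵥ x) - crossProduct x a) -
          s₀ • (v 0 • (A *ᵥ x) - crossProduct x (A.adjugate *ᵥ av v)) := rfl
        have e4 : s₀ • crossProduct x (A.adjugate *ᵥ av v) =
            f • crossProduct x a + g • crossProduct x b := by
          rw [← map_smul, e1, map_add, map_smul, map_smul]
        rw [e3, smul_sub s₀, e4, smul_smul s₀, ← hu]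
        module
      funext i
      refine Fin.cases ?_ (fun j => ?_) i
      · change f * (s₀ * (x ⬝ᵥ av v)) - s₀ * (f * (x ⬝ᵥ av v)) = g * 0
        ring
      · exact congrFun e2 j
    unfold Trel
    rw [this]
    exact gm_smul g _
  refine ⟨w, ⟨J.mul_mem_right _ hs, fun i => ?_⟩, hrel⟩
  -- `adj(A) a' ≡ - s₀ (c x - A x × a)`
  have key : f * ((A.adjugate *ᵥ av w) i + s₀ * (v 0 • x - crossProduct (A *ᵥ x) (av v)) i) ∈
      Ideal.span {g} := by
    obtain ⟨z, hz⟩ := exists_of_mem_gm hrel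
    have e5 : f • av w = s₀ • av (sopL f A x v) + g • av z := by
      rw [← sub_eq_iff_eq_add']
      exact congrArg av hz
    have e6 : av (sopL f A x v) = v 0 • (A *ᵥ x) - crossProduct x (A.adjugate *ᵥ av v) := rfl
    have e7 : f • (A.adjugate *ᵥ av w) =
        s₀ • (-f) • (v 0 • x - crossProduct (A *ᵥ x) (av v)) + g • (A.adjugate *ᵥ av z) := by
      rw [← mulVec_smul, e5, mulVec_add, mulVec_smul, mulVec_smul, e6, ident1 A hA, hdet]
    have e8 := congrFun e7 i
    simp only [Pi.smul_apply, Pi.add_apply, smul_eq_mul] at e8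
    rw [Ideal.mem_span_singleton]
    refine ⟨(A.adjugate *ᵥ av z) i, ?_⟩
    rw [mul_add, e8]
    ring
  have key2 : g ∣ (A.adjugate *ᵥ av w) i + s₀ * (v 0 • x - crossProduct (A *ᵥ x) (av v)) i :=
    (hg.dvd_or_dvd (Ideal.mem_span_singleton.mp key)).resolve_left hgf
  have h3 := J.sub_mem (J.mem_of_dvd key2 hgJ)
    (J.mul_mem_right ((v 0 • x - crossProduct (A *ᵥ x) (av v)) i) hs)
  rwa [add_sub_cancel_right] at h3

theorem Trel.mem_modM [IsDomain R] (hA : A.IsSymm) (hdet : A.det = -f) (hg : Prime g)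
    (hgf : ¬ g ∣ f) {v w : Fin 4 → R} (hv : v ∈ modM g A ν) (h : Trel g f s₀ A x v w) :
    w ∈ modM g A ν := by
  have hgm : gm g ≤ modM g A ν := by
    intro u hu
    obtain ⟨z, rfl⟩ := exists_of_mem_gm hu
    refine ⟨?_, fun i => ?_⟩
    · rw [av_smul, smul_dotProduct]
      exact Dvd.intro _ rfl
    · have : (crossProduct (av (g • z)) (A *ᵥ ν) - (g • z) 0 • ν) i =
          g * (crossProduct (av z) (A *ᵥ ν) - z 0 • ν) i := by
        rw [av_smul, map_smul, LinearMap.smul_apply]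
        simp only [Pi.sub_apply, Pi.smul_apply, smul_eq_mul]
        ring
      rw [this]
      exact Dvd.intro _ rfl
  have h1 : f • w ∈ modM g A ν := by
    have := (modM g A ν).add_mem (hgm h)
      ((modM g A ν).smul_mem s₀ (sop_mem_modM (x := x) hA hdet hv))
    rwa [sub_add_cancel] at this
  obtain ⟨h2, h3⟩ := h1
  refine ⟨?_, fun i => ?_⟩
  · rw [av_smul, smul_dotProduct, smul_eq_mul] at h2
    exact (hg.dvd_or_dvd h2).resolve_left hgf
  · have : (crossProduct (av (f • w)) (A *ᵥ ν) - (f • w) 0 • ν) i =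
        f * (crossProduct (av w) (A *ᵥ ν) - w 0 • ν) i := by
      rw [av_smul, map_smul, LinearMap.smul_apply]
      simp only [Pi.sub_apply, Pi.smul_apply, smul_eq_mul]
      ring
    have h4 := h3 i
    rw [this] at h4
    exact (hg.dvd_or_dvd h4).resolve_left hgf

theorem Trel.mem_modP [IsDomain R] (hg : Prime g) (hgf : ¬ g ∣ f)
    (hgJ : g ∈ J) (hJ : ∀ a ∈ J, ∀ b ∈ J, a * b ∈ Ideal.span {f, g}) (hs : s₀ ∈ J)
    {v w : Fin 4 → R} (hv : v ∈ modP g A J x) (h : Trel g f s₀ A x v w) :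
    w ∈ modP g A J x := by
  obtain ⟨hv, β, hβ⟩ := hv
  choose b hb using hβ
  have h1 : av v = β • (A *ᵥ x) + g • b := by
    rw [← sub_eq_iff_eq_add']
    exact funext hb
  obtain ⟨u, u', hu⟩ := Ideal.mem_span_pair.mp (hJ _ hs _ hv)
  set w' : Fin 4 → R := Fin.cons (s₀ * (x ⬝ᵥ av v)) (u • (A *ᵥ x)) with hw'
  have hw'P : w' ∈ modP g A J x := by
    refine ⟨J.mul_mem_right _ hs, u, fun i => ?_⟩
    have : av w' = u • (A *ᵥ x) := rfl
    rw [this, sub_self]
    exact dvd_zero g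
  have hrel : Trel g f s₀ A x v w' := by
    have e2 : av (f • w' - s₀ • sopL f A x v) =
        g • (s₀ • crossProduct x (A.adjugate *ᵥ b) - u' • (A *ᵥ x)) := by
      have e3 : av (f • w' - s₀ • sopL f A x v) = f • (u • (A *ᵥ x)) -
        s₀ • (v 0 • (A *ᵥ x) - crossProduct x (A.adjugate *ᵥ av v)) := rfl
      rw [e3, cross_modP h1, smul_sub s₀, smul_smul s₀, ← hu]
      module
    have : f • w' - s₀ • sopL f A x v =
        g • (Fin.cons 0 (s₀ • crossProduct x (A.adjugate *ᵥ b) - u' • (A *ᵥ x)) :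
          Fin 4 → R) := by
      funext i
      refine Fin.cases ?_ (fun j => ?_) i
      · change f * (s₀ * (x ⬝ᵥ av v)) - s₀ * (f * (x ⬝ᵥ av v)) = g * 0
        ring
      · exact congrFun e2 j
    unfold Trel
    rw [this]
    exact gm_smul g _
  have h5 := gm_le_modP (A := A) (J := J) (x := x) hgJ (Trel.unique hg hgf h hrel)
  have := (modP g A J x).add_mem h5 hw'P
  rwa [sub_add_cancel] at this

/-- `S² = f A(x)`. -/
theorem sop_sop (hA : A.IsSymm) (hdet : A.det = -f) (v : Fin 4 → R) :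
    sopL f A x (sopL f A x v) = (f * (x ⬝ᵥ (A *ᵥ x))) • v := by
  have h : ∀ v, av (sopL f A x v) = v 0 • (A *ᵥ x) - crossProduct x (A.adjugate *ᵥ av v) :=
    fun _ => rfl
  have h0 : ∀ v, sopL f A x v 0 = f * (x ⬝ᵥ av v) := fun _ => rfl
  have h1 : av (sopL f A x (sopL f A x v)) = (f * (x ⬝ᵥ (A *ᵥ x))) • av v := by
    rw [h, h0, h, ident1 A hA, hdet, mul_smul f (x ⬝ᵥ (A *ᵥ x)),
      ← ident3 x (av v) (A *ᵥ x) (v 0), map_smul]
    module
  funext i
  refine Fin.cases ?_ (fun j => ?_) i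
  · rw [h0, h, ident2]
    simp only [Pi.smul_apply, smul_eq_mul]
    ring
  · exact congrFun h1 j

end ops

section main

theorem stmtJ : StmtJ := by
  intro R _ _ g f A J x ν s₀ c₀ hg hgf hA hdet hf hgJ hJ _ _ hs hc
  set L : Submodule R (Fin 4 → R) := (modX A J ⊓ modM g A ν) ⊔ modP g A J x with hL
  set LX : Submodule R (modX A J) := L.comap (modX A J).subtype with hLX
  have hgmL : gm g ≤ L := le_trans (gm_le_modP hgJ) le_sup_right
  -- the operator `S`
  let SX : modX A J →ₗ[R] modX A J :=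
    (sopL f A x).restrict (fun v _ => sop_mem_modX hA hdet hf v)
  have hSX : ∀ v, ((SX v : modX A J) : Fin 4 → R) = sopL f A x v := fun _ => rfl
  have hSL : L ≤ L.comap (sopL f A x) := by
    rw [hL, sup_le_iff]
    constructor
    · rintro v ⟨_, hv⟩
      exact Submodule.mem_sup_left ⟨sop_mem_modX hA hdet hf v, sop_mem_modM hA hdet hv⟩
    · intro v hv
      exact Submodule.mem_sup_right (sop_mem_modP hf hv)
  have hSLX : LX ≤ LX.comap SX := fun v hv => hSL hv
  let S : Module.End R (Nq (modX A J) L) := LX.mapQ LX SX hSLX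
  have hS : ∀ v : modX A J, S (LX.mkQ v) = LX.mkQ (SX v) := fun _ => rfl
  -- the operator `T`
  have hex : ∀ v : modX A J, ∃ w : modX A J, Trel g f s₀ A x v w := by
    intro v
    obtain ⟨w, hw, h⟩ := Trel.exists (x := x) hA hdet hg hgf hgJ hJ hs v.2
    exact ⟨⟨w, hw⟩, h⟩
  choose τ hτ using hex
  have huniq : ∀ (v : Fin 4 → R) (w w' : modX A J), Trel g f s₀ A x v w →
      Trel g f s₀ A x v w' → LX.mkQ w = LX.mkQ w' := by
    intro v w w' h h'
    rw [Submodule.mkQ_apply, Submodule.mkQ_apply, Submodule.Quotient.eq]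
    exact hgmL (Trel.unique hg hgf h h')
  let TX : modX A J →ₗ[R] Nq (modX A J) L :=
    { toFun := fun v => LX.mkQ (τ v)
      map_add' := by
        intro v w
        rw [← map_add]
        exact huniq _ _ _ (hτ (v + w)) ((hτ v).add (hτ w))
      map_smul' := by
        intro c v
        rw [RingHom.id_apply, ← map_smul]
        exact huniq _ _ _ (hτ (c • v)) ((hτ v).smul c) }
  have hTX : ∀ v, TX v = LX.mkQ (τ v) := fun _ => rfl
  have hTL : LX ≤ LinearMap.ker TX := by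
    intro v hv
    rw [LinearMap.mem_ker, hTX, Submodule.mkQ_apply, Submodule.Quotient.mk_eq_zero]
    change ((τ v : modX A J) : Fin 4 → R) ∈ L
    have hv' : (v : Fin 4 → R) ∈ L := hv
    obtain ⟨y, hy, z, hz, hyz⟩ := Submodule.mem_sup.mp hv'
    obtain ⟨wy, hwy, hwy'⟩ := Trel.exists (x := x) hA hdet hg hgf hgJ hJ hs hy.1
    obtain ⟨wz, hwz, hwz'⟩ := Trel.exists (x := x) hA hdet hg hgf hgJ hJ hs
      (modP_le_modX (x := x) hdet hf hgJ hz)
    have h1 : wy ∈ L := Submodule.mem_sup_left ⟨hwy, hwy'.mem_modM hA hdet hg hgf hy.2⟩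
    have h2 : wz ∈ L := Submodule.mem_sup_right (hwz'.mem_modP hg hgf hgJ hJ hs hz)
    have h3 := hwy'.add hwz'
    rw [hyz] at h3
    have h4 := hgmL (Trel.unique hg hgf (hτ v) h3)
    have h5 := L.add_mem h4 (L.add_mem h1 h2)
    rwa [sub_add_cancel] at h5
  let T : Module.End R (Nq (modX A J) L) := LX.liftQ TX hTL
  have hT : ∀ v : modX A J, T (LX.mkQ v) = LX.mkQ (τ v) := fun _ => rfl
  refine ⟨S, T, ?_, ?_, ?_⟩
  · -- `S T = T S`
    refine LinearMap.ext fun q => ?_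
    obtain ⟨v, rfl⟩ := Submodule.mkQ_surjective LX q
    rw [Module.End.mul_apply, Module.End.mul_apply, hT, hS, hS, hT]
    refine huniq (SX v) _ _ ?_ (hτ (SX v))
    have h := sopL_gm f A x (hτ v)
    rw [map_sub, map_smul, map_smul] at h
    exact h
  · refine LinearMap.ext fun q => ?_
    obtain ⟨v, rfl⟩ := Submodule.mkQ_surjective LX q
    rw [Module.End.mul_apply, hS, hS, Module.algebraMap_end_apply, ← map_smul]
    congr 1
    apply Subtype.ext
    exact sop_sop hA hdet v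
  · refine LinearMap.ext fun q => ?_
    obtain ⟨v, rfl⟩ := Submodule.mkQ_surjective LX q
    rw [Module.End.mul_apply, hT, hT, Module.algebraMap_end_apply, ← map_smul,
      Submodule.mkQ_apply, Submodule.mkQ_apply, Submodule.Quotient.eq]
    apply hgmL
    change ((τ (τ v) : modX A J) : Fin 4 → R) - (c₀ ^ 2 * (x ⬝ᵥ (A *ᵥ x))) • (v : Fin 4 → R) ∈ gm g
    apply gm_cancel hg hgf
    apply gm_cancel hg hgf
    -- the three congruences
    have e1 : f • ((τ (τ v) : modX A J) : Fin 4 → R) - s₀ • sopL f A x (τ v) ∈ gm g := hτ (τ v)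
    have e2 : f • sopL f A x (τ v) - s₀ • sopL f A x (sopL f A x v) ∈ gm g := by
      have h := sopL_gm f A x (hτ v)
      rw [map_sub, map_smul, map_smul] at h
      exact h
    rw [sop_sop hA hdet] at e2
    obtain ⟨r, hr⟩ := hc
    have e3 : ((c₀ ^ 2 * f - s₀ ^ 2) * (f * (x ⬝ᵥ (A *ᵥ x)))) • (v : Fin 4 → R) ∈ gm g := by
      rw [hr, mul_assoc, mul_smul]
      exact gm_smul g _
    have h := (gm g).sub_mem ((gm g).add_mem ((gm g).smul_mem f e1) ((gm g).smul_mem s₀ e2)) e3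
    convert h using 1
    module

end main

end Vale.Agent.P287.H589
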