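import Vale.Agent.P287.Odd.Spec
import Vale.Agent.P287.H589.OddPt

/-! Block [O] of the odd theta theorem, in the literal form of `Odd/Spec.lean`. -/

namespace Vale.Agent.P287.H589

open Module Polynomial Vale.Agent.P287.Odd

theorem stmtO : StmtO := by
  intro k _ R _ _ N _ _ _ _ _ S T a b g hST hS hT hg hodd
  let _ : Module R[X] N := inferInstanceAs (Module R[X] (Module.AEval' S))
  have hC : ∀ (r : R) (t : N), (C r : R[X]) • t = r • t := fun r t =>
    Module.AEval.C_smul (R := R) (M := N) S r t
  have hX : ∀ t : N, (X : R[X]) • t = S t := fun t => Module.AEval'.X_smul_of S t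
  let T1 : Module.End R[X] N :=
    { toFun := T
      map_add' := map_add T
      map_smul' := by
        intro p t
        simp only [RingHom.id_apply]
        induction p using Polynomial.induction_on generalizing t with
        | C r => rw [hC, hC, map_smul]
        | add p q hp hq => rw [add_smul, add_smul, map_add, hp, hq]
        | monomial n r h =>
          rw [pow_succ, ← mul_assoc, mul_smul, h, mul_smul _ (X : R[X]) (T t), hX, hX]
          congr 1
          exact (congrArg (fun L : Module.End R N => L t) hST).symm }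
  have hT1 : ∀ t, T1 t = T t := fun _ => rfl
  let _ : Module R[X][X] N := inferInstanceAs (Module R[X][X] (Module.AEval' T1))
  have hC2 : ∀ (r : R[X]) (t : N), (C r : R[X][X]) • t = r • t := fun r t =>
    Module.AEval.C_smul (R := R[X]) (M := N) T1 r t
  have hX2 : ∀ t : N, (X : R[X][X]) • t = T t := fun t => Module.AEval'.X_smul_of T1 t
  have hst : IsScalarTower k R[X][X] N := by
    refine ⟨fun c p t => ?_⟩
    rw [Algebra.smul_def, mul_smul]
    have h1 : algebraMap k R[X][X] c = C (C (algebraMap k R c)) := rfl
    rw [h1, hC2, hC, algebraMap_smul]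
  obtain ⟨m, hm, hann, hfin, hod⟩ := exists_odd_residue (k := k) (R := R[X][X]) N hodd
  let _ : Field (R[X][X] ⧸ m) := Ideal.Quotient.field m
  have key : ∀ p : R[X][X], (∀ t : N, p • t = 0) → Ideal.Quotient.mk m p = 0 := by
    intro p hp
    rw [Ideal.Quotient.eq_zero_iff_mem]
    apply hann
    rw [Module.mem_annihilator]
    exact hp
  let φ : R →ₐ[k] (R[X][X] ⧸ m) :=
    { toRingHom := (Ideal.Quotient.mk m).comp ((C : R[X] →+* R[X][X]).comp (C : R →+* R[X]))
      commutes' := fun c => rfl }
  have hφ : ∀ r, φ r = Ideal.Quotient.mk m (C (C r)) := fun _ => rfl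
  refine ⟨R[X][X] ⧸ m, inferInstance, inferInstance, φ, Ideal.Quotient.mk m (C X),
    Ideal.Quotient.mk m X, hfin, hod, ?_, ?_, ?_⟩
  · rw [hφ]
    apply key
    intro t
    rw [hC2, hC, hg]
  · rw [hφ, ← map_pow, ← sub_eq_zero, ← map_sub]
    apply key
    intro t
    rw [sub_smul, ← map_pow, hC2, hC2, hC, pow_two, mul_smul, hX, hX, sub_eq_zero]
    exact congrArg (fun L : Module.End R N => L t) hS
  · rw [hφ, ← map_pow, ← sub_eq_zero, ← map_sub]
    apply key
    intro t
    rw [sub_smul, hC2, hC, pow_two, mul_smul, hX2, hX2, sub_eq_zero]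
    exact congrArg (fun L : Module.End R N => L t) hT

end Vale.Agent.P287.H589
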