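import Vale.Agent.P287.H589.StmtJ
import Vale.Agent.P287.H589.StmtO

/-! Block [K] of the odd theta theorem: `StmtN` implies `StmtK`. -/

namespace Vale.Agent.P287.H589

open Polynomial Matrix Module Vale.Agent.P287.Odd

/-- An element without zeros at infinity is not divisible by `g`. -/
theorem InfUnit.ndvd {k : Type} [Field k] {n : ℕ} (hn : 1 ≤ n) {g z : k[X][X]} (hg : g.Monic)
    {d : ℕ} (h : InfUnit n g d z) : ¬ g ∣ z := by
  intro hz
  have h1 := h.2 0 (C X) (fun j hj => by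
    rw [coeff_C, if_neg (by omega)]) (by
      have : (z * C X) %ₘ g = 0 := (modByMonic_eq_zero_iff_dvd hg).mpr (hz.mul_right _)
      rw [this]
      intro i j _
      simp)
  have h2 := h1 1 0 (by omega)
  rw [coeff_C_zero, coeff_X_one] at h2
  exact one_ne_zero h2

theorem stmtK (hN : StmtN) : StmtK := by
  intro k _ _ m hm g f A J x ν dν s₀ c₀ hC hH hQ hI hs hc hev
  obtain ⟨hfin, hodd⟩ := hN k m hm g f A J x ν dν hC hH hQ hI hev
  have hν : ∃ i, ¬ g ∣ ν i := by
    by_contra hcon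
    push Not at hcon
    apply InfUnit.ndvd (by omega) hC.monic hI.inf
    rw [dotProduct]
    exact Finset.dvd_sum fun i _ => (hcon i).mul_left _
  obtain ⟨S, T, hST, hS, hT⟩ := stmtJ k[X][X] g f A J (cx x) ν s₀ c₀ hC.prime hC.ndvd hQ.symm
    hQ.det hH.f_mem hH.g_mem hH.mul_mem hI.iso hν hs hc
  refine stmtO k k[X][X] _ S T _ _ g hST hS hT ?_ hodd
  intro q
  obtain ⟨v, rfl⟩ := Submodule.mkQ_surjective _ q
  rw [← map_smul, Submodule.mkQ_apply, Submodule.Quotient.mk_eq_zero]
  have h1 : gm g ≤ (modX A J ⊓ modM g A ν) ⊔ modP g A J (cx x) :=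
    le_trans (gm_le_modP hH.g_mem) le_sup_right
  exact h1 (gm_smul g _)

end Vale.Agent.P287.H589
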